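import Vale.Agent.P078.MKS.TypeI.Atoms
import Vale.Agent.P078.MKS.Assembly.Pad
import Vale.Agent.P078.MKS.OpDefs

/-!
Every MASA of all bounded operators has so-paving with `O(ε⁻²)` pieces.
-/

namespace Vale.Agent.P078.MKS.TypeI

open Singular
open scoped InnerProductSpace

variable {H : Type} [NormedAddCommGroup H] [InnerProductSpace ℂ H] [CompleteSpace H]
variable {M A : VonNeumannAlgebra H}

/-- The trace of a finite family of vectors. -/
noncomputable def finTrace {n : ℕ} (b : Fin n → H) : (H →L[ℂ] H) →ₗ[ℂ] ℂ where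
  toFun y := ∑ i, ⟪b i, y (b i)⟫_ℂ
  map_add' y z := by simp [Finset.sum_add_distrib]
  map_smul' c y := by simp [Finset.mul_sum]

omit [CompleteSpace H] in
theorem finTrace_apply {n : ℕ} (b : Fin n → H) (y : H →L[ℂ] H) :
    finTrace b y = ∑ i, ⟪b i, y (b i)⟫_ℂ := rfl

/-- The trace of an orthonormal basis of a finite rank projection. -/
theorem isTrace_finTrace {e : H →L[ℂ] H} {n : ℕ} (b : Fin n → H) (hb : ∀ i, e (b i) = b i)
    (hsum : ∀ v, e v = ∑ i, ⟪b i, v⟫_ℂ • b i) : IsTrace M e (finTrace b) := by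
  classical
  have key : ∀ y : H →L[ℂ] H,
      finTrace b (star y * y) = ((∑ i, ‖y (b i)‖ ^ 2 : ℝ) : ℂ) := fun y => by
    rw [finTrace_apply, Complex.ofReal_sum]
    refine Finset.sum_congr rfl fun i _ => ?_
    rw [mul_apply_eq_comp, ContinuousLinearMap.star_eq_adjoint,
      ContinuousLinearMap.adjoint_inner_right, inner_self_eq_norm_sq_to_K, Complex.ofReal_pow]
    rfl
  refine ⟨fun y _ _ => ?_, fun y _ hy h => ?_, fun y _ z _ hy hz => ?_, fun ε hε => ?_⟩
  · rw [key, Complex.ofReal_re, Complex.ofReal_im]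
    exact ⟨Finset.sum_nonneg fun i _ => sq_nonneg _, rfl⟩
  · rw [key, Complex.ofReal_eq_zero] at h
    have h0 := (Finset.sum_eq_zero_iff_of_nonneg fun i _ => sq_nonneg ‖y (b i)‖).1 h
    refine ContinuousLinearMap.ext fun v => ?_
    rw [← hy, mul_apply_eq_comp, mul_apply_eq_comp, hsum v, map_sum, map_sum]
    refine Finset.sum_eq_zero fun i _ => ?_
    have := h0 i (Finset.mem_univ i)
    rw [pow_eq_zero_iff two_ne_zero, norm_eq_zero] at this
    rw [map_smul, this, smul_zero, map_zero]
  · have hin : ∀ (w : H →L[ℂ] H), e * w * e = w → ∀ v, w v = ∑ j, ⟪b j, w v⟫_ℂ • b j := by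
      intro w hw v
      rw [← hsum]
      conv_lhs => rw [← hw]
      conv_rhs => rw [← hw]
      simp only [mul_apply_eq_comp]
      rw [hsum (w (e v)), map_sum]
      exact Finset.sum_congr rfl fun j _ => by rw [map_smul, hb]
    have e1 : ∀ (u w : H →L[ℂ] H), e * w * e = w →
        finTrace b (u * w) = ∑ i, ∑ j, ⟪b j, w (b i)⟫_ℂ * ⟪b i, u (b j)⟫_ℂ := by
      intro u w hw
      rw [finTrace_apply]
      refine Finset.sum_congr rfl fun i _ => ?_
      rw [mul_apply_eq_comp]
      conv_lhs => rw [hin w hw (b i)]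
      simp
    rw [e1 y z hz, e1 z y hy, Finset.sum_comm]
    exact Finset.sum_congr rfl fun i _ => Finset.sum_congr rfl fun j _ => mul_comm _ _
  · set S := ∑ i, ‖b i‖
    refine ⟨Finset.univ.image b, ε / (S + 1), div_pos hε
      (add_pos_of_nonneg_of_pos (Finset.sum_nonneg fun i _ => norm_nonneg _) one_pos),
      fun y _ _ _ hyF => ?_⟩
    rw [finTrace_apply]
    have hS : 0 ≤ S := Finset.sum_nonneg fun i _ => norm_nonneg _
    calc ‖∑ i, ⟪b i, y (b i)⟫_ℂ‖ ≤ ∑ i, ‖b i‖ * (ε / (S + 1)) :=
          (norm_sum_le _ _).trans (Finset.sum_le_sum fun i _ => (norm_inner_le_norm _ _).trans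
            (mul_le_mul_of_nonneg_left (hyF _ (Finset.mem_image_of_mem b (Finset.mem_univ i))).le
              (norm_nonneg _)))
      _ = S * (ε / (S + 1)) := (Finset.sum_mul _ _ _).symm
      _ < ε := by rw [mul_div_assoc', div_lt_iff₀ (by linarith)]; nlinarith

theorem soPavable_mono {p x : H →L[ℂ] H} {ε : ℝ} {r s : ℕ} (hrs : r ≤ s)
    (h : SoPavable M A p x ε r) : SoPavable M A p x ε s := by
  intro F δ hδ
  obtain ⟨P, a, q, h1, h2, h3, h4, h5, h6, h7, h8, h9, h10, h11, h12⟩ := h F δ hδ
  obtain ⟨⟨g1, g2, g3⟩, g4⟩ := pad_partition hrs (⟨h1, h2, h3⟩ : IsPartition A p P)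
  exact ⟨_, a, q, g1, g2, g3, h4, h5, h6, h7, h8, h9, h10, h11, by
    rw [show (∑ i, pad P i * x * pad P i) = ∑ i, P i * x * P i from g4 x]; exact h12⟩

/-- So-paving with `O(ε⁻²)` pieces for every MASA of all bounded operators. -/
theorem bh_paving (hSq : CartanPavingSqStatement) :
    ∃ C : ℕ, ∀ (H : Type) [NormedAddCommGroup H] [InnerProductSpace ℂ H] [CompleteSpace H]
      (M A : VonNeumannAlgebra H), IsMASA M A → (∀ y : H →L[ℂ] H, y ∈ M) →
      ∀ x : H →L[ℂ] H, IsSelfAdjoint x →
        ∀ (ε : ℝ) (r : ℕ), 0 < ε → ε < 1 → (C : ℝ) ≤ ε ^ 2 * r → SoPavable M A 1 x ε r := by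
  classical
  obtain ⟨C, hC⟩ := hSq
  refine ⟨C + 2, fun H _ _ _ M A hA hM x hx ε r hε hε1 hr => ?_⟩
  have hab := hA.2.1
  obtain ⟨S, Q, hS, hQ, hTQ, happrox, h0⟩ := split hab hA.2.2 hM
  set x' := Q * x * Q with hx'def
  have hx's : IsSelfAdjoint x' := by
    have := hx.conjugate Q
    rwa [hQ.2.isSelfAdjoint.star_eq] at this
  set r₀ := ⌊1 / ε⌋₊ + 1 with hr₀def
  have hεr₀ : 1 < ε * r₀ := by
    have := Nat.lt_floor_add_one (1 / ε)
    rw [div_lt_iff₀ hε] at this
    rw [hr₀def]; push_cast
    linarith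
  have hr₀le : ε ^ 2 * r₀ ≤ 2 := by
    have := Nat.floor_le (one_div_pos.2 hε).le
    rw [le_div_iff₀ hε] at this
    rw [hr₀def]; push_cast
    nlinarith
  push_cast at hr
  have hr₀r : r₀ ≤ r := by
    by_contra h
    have h' : (r : ℝ) < r₀ := by exact_mod_cast not_le.1 h
    nlinarith [(Nat.cast_nonneg C : (0 : ℝ) ≤ C)]
  set s := r - r₀ with hsdef
  have hs : (C : ℝ) ≤ ε ^ 2 * s := by
    rw [hsdef, Nat.cast_sub hr₀r]; linarith
  have hQ1 : 1 - (1 - Q) = Q := sub_sub_cancel 1 Q
  have hatoms : SoPavable M A Q x' ε s := by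
    refine hC H M A hA Q hQ.1 hQ.2 (fun F δ hδ => ?_) x' (hM _) hx's (fun T hT => ?_) ε s hε hε1 hs
    · obtain ⟨T, hT, hTF⟩ := happrox F δ hδ
      set e := ∑ u ∈ T, u
      have he := (hS.sum_pr T hT).1
      choose ξ hξ1 hξu using fun u : {u // u ∈ T} => (hS.1 u.1 (hT u.1 u.2)).2.2.2
      let b : Fin (Fintype.card {u // u ∈ T}) → H := fun i => ξ ((Fintype.equivFin _).symm i)
      have hsum : ∀ v, e v = ∑ i, ⟪b i, v⟫_ℂ • b i := by
        intro v
        rw [Equiv.sum_comp (Fintype.equivFin {u // u ∈ T}).symm fun u => ⟪ξ u, v⟫_ℂ • ξ u]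
        simp only [e, sum_apply]
        rw [← Finset.sum_coe_sort T fun u => u v]
        refine Finset.sum_congr rfl fun u _ => ?_
        nth_rw 1 [hξu u]
        exact InnerProductSpace.rankOne_apply _ _ _
      have hb : ∀ i, e (b i) = b i := by
        intro i
        set u := (Fintype.equivFin {u // u ∈ T}).symm i
        show e (ξ u) = ξ u
        have hu : (u : H →L[ℂ] H) (ξ u) = ξ u := by
          rw [hξu u]
          simp [inner_self_eq_norm_sq_to_K, hξ1 u]
        have heu : e * (u : H →L[ℂ] H) = u := by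
          simp only [e, Finset.sum_mul]
          rw [Finset.sum_eq_single_of_mem _ u.2 fun v hv hne => hS.2 (hT v hv) (hT _ u.2) hne]
          exact (hS.1 _ (hT _ u.2)).1.2.isIdempotentElem.eq
        conv_lhs => rw [← hu, ← mul_apply_eq_comp, heu, hu]
      exact ⟨e, finTrace b, he.1, he.2, hTQ T hT, isTrace_finTrace b hb hsum, hTF⟩
    · have hTA : T ∈ A := hA.2.2 T (hM T) fun z hz => hT z (Or.inl hz)
      rcases S.eq_empty_or_nonempty with hSe | ⟨u₀, hu₀⟩
      · have hQ0 : Q = 0 := by
          refine ContinuousLinearMap.ext fun v => norm_le_zero_iff.1 ?_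
          refine le_of_forall_gt_imp_ge_of_dense fun δ hδ => ?_
          obtain ⟨T', hT', hT'F⟩ := happrox {v} δ hδ
          have : T' = ∅ := Finset.eq_empty_of_forall_notMem fun u hu => by
            have := hT' u hu
            rw [hSe] at this
            exact this
          have h := hT'F v (Finset.mem_singleton_self v)
          rw [this, Finset.sum_empty, sub_zero] at h
          exact h.le
        simp [hx'def, hQ0]
      · obtain ⟨η, hη, hu₀η⟩ := (hS.1 u₀ hu₀).2.2.2
        set c := ⟪η, T η⟫_ℂ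
        have hu : ∀ u ∈ S, u * T = c • u := by
          intro u hu
          obtain ⟨ξ, hξ, huξ⟩ := (hS.1 u hu).2.2.2
          set R := InnerProductSpace.rankOne ℂ ξ η with hRdef
          have hRn : R ∈ normaliser M A := by
            have hstar : star R = InnerProductSpace.rankOne ℂ η ξ := by
              rw [hRdef, ContinuousLinearMap.star_eq_adjoint, InnerProductSpace.adjoint_rankOne]
            refine ⟨hM _, ?_, fun a ha => ⟨?_, ?_⟩⟩
            · refine ContinuousLinearMap.ext fun v => ?_
              rw [hstar]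
              simp [hRdef, inner_self_eq_norm_sq_to_K, hξ, hη]
            · have : R * a * star R = ⟪η, a η⟫_ℂ • u := ContinuousLinearMap.ext fun v => by
                rw [hstar]
                simp [hRdef, huξ, smul_smul, mul_comm]
              rw [this]
              exact A.toStarSubalgebra.smul_mem (hS.1 u hu).1.1 _
            · have : star R * a * R = ⟪ξ, a ξ⟫_ℂ • u₀ := ContinuousLinearMap.ext fun v => by
                rw [hstar]
                simp [hRdef, hu₀η, smul_smul, mul_comm]
              rw [this]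
              exact A.toStarSubalgebra.smul_mem (hS.1 u₀ hu₀).1.1 _
          have hRT : R * T = T * R := hT R (Or.inr hRn)
          have hTξ : T ξ = c • ξ := by
            have := DFunLike.congr_fun hRT η
            simpa [hRdef, inner_self_eq_norm_sq_to_K, hη, c] using this.symm
          rw [hab u (hS.1 u hu).1.1 T hTA, huξ]
          refine ContinuousLinearMap.ext fun v => ?_
          simp [hTξ, smul_smul, mul_comm]
        have hQT : Q * T = c • Q := by
          refine ContinuousLinearMap.ext fun v => sub_eq_zero.1 (norm_le_zero_iff.1 ?_)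
          refine le_of_forall_gt_imp_ge_of_dense fun δ hδ => ?_
          obtain ⟨T', hT', hT'F⟩ := happrox {T v, v} (δ / (2 * (‖c‖ + 1))) (by positivity)
          have hsum : (∑ u ∈ T', u) * T = c • ∑ u ∈ T', u := by
            rw [Finset.sum_mul, Finset.smul_sum]
            exact Finset.sum_congr rfl fun u hu' => hu u (hT' u hu')
          have heq : (Q * T) v - (c • Q) v =
              (Q - ∑ u ∈ T', u) (T v) - c • (Q - ∑ u ∈ T', u) v := by
            have := DFunLike.congr_fun hsum v
            simp only [mul_apply_eq_comp, smul_apply] at this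
            simp only [mul_apply_eq_comp, smul_apply, sub_apply, smul_sub, this]
            abel
          rw [heq]
          refine (norm_sub_le _ _).trans ?_
          rw [norm_smul]
          have h1 := (hT'F (T v) (Finset.mem_insert_self _ _)).le
          have h2 := (hT'F v (Finset.mem_insert_of_mem (Finset.mem_singleton_self v))).le
          have h3 := mul_le_mul_of_nonneg_left h2 (norm_nonneg c)
          have h4 : δ / (2 * (‖c‖ + 1)) * (1 + ‖c‖) = δ / 2 := by field_simp; ring
          nlinarith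
        have hTQ : T * Q = c • Q := by rw [← hab Q hQ.1 T hTA, hQT]
        calc T * x' = T * Q * x * Q := by simp only [hx'def, mul_assoc]
          _ = c • (Q * x * Q) := by rw [hTQ, smul_mul_assoc, smul_mul_assoc]
          _ = Q * x * (c • Q) := by rw [mul_smul_comm]
          _ = x' * T := by rw [← hQT]; simp only [hx'def, mul_assoc]
  have hp₀ : IsPr A (1 - Q) := ⟨sub_mem (one_mem _) hQ.1, hQ.2.one_sub⟩
  have hglue := so_glue hab hp₀ hε.le
    (so_paving₀ hA.1 hab hA.2.2 hp₀ h0 (hM x) hx hεr₀) (by rw [hQ1]; exact hatoms)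
  rwa [show r₀ + s = r by omega] at hglue

end Vale.Agent.P078.MKS.TypeI
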