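import Vale.Agent.P078.Singular.Main

/-!
A MASA of all bounded operators: rank one projections, and the diffuse rest which no normal
central functional sees.
-/

namespace Vale.Agent.P078.MKS.TypeI

open Singular
open scoped InnerProductSpace

variable {H : Type} [NormedAddCommGroup H] [InnerProductSpace ℂ H] [CompleteSpace H]
variable {M A : VonNeumannAlgebra H}

/-- A unit rank one projection. -/
def IsRankOne (u : H →L[ℂ] H) : Prop :=
  ∃ ξ : H, ‖ξ‖ = 1 ∧ u = InnerProductSpace.rankOne ℂ ξ ξ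

theorem rankOne_proj {ξ : H} (hξ : ‖ξ‖ = 1) :
    IsStarProjection (InnerProductSpace.rankOne ℂ ξ ξ) := by
  refine ⟨?_, ?_⟩
  · show InnerProductSpace.rankOne ℂ ξ ξ * InnerProductSpace.rankOne ℂ ξ ξ = _
    refine ContinuousLinearMap.ext fun v => ?_
    simp [inner_self_eq_norm_sq_to_K, hξ]
  · show star (InnerProductSpace.rankOne ℂ ξ ξ) = _
    rw [ContinuousLinearMap.star_eq_adjoint, InnerProductSpace.adjoint_rankOne]

/-- A minimal projection of a MASA of all bounded operators has rank one. -/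
theorem rankOne_of_minimal (hab : ∀ y ∈ A, ∀ z ∈ A, y * z = z * y)
    (hmax : ∀ y ∈ M, (∀ z ∈ A, z * y = y * z) → y ∈ A) (hM : ∀ y : H →L[ℂ] H, y ∈ M)
    {u : H →L[ℂ] H} (hu : IsPr A u) (hu0 : u ≠ 0)
    (hmin : ∀ e, IsPr A e → e * u = e → e = 0 ∨ e = u) : IsRankOne u := by
  have huu : u * u = u := hu.2.isIdempotentElem.eq
  have hcorner : ∀ y : H →L[ℂ] H, u * y * u ∈ A := by
    intro y
    refine hmax _ (hM _) fun z hz => ?_
    have hcomm : ∀ s, IsPr A s → s * (u * y * u) = u * y * u * s := by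
      intro s hs
      rcases hmin (s * u) (isPr_mul hab hs hu) (by rw [mul_assoc, huu]) with h | h
      · calc s * (u * y * u) = s * u * y * u := by simp only [mul_assoc]
          _ = 0 := by rw [h, zero_mul, zero_mul]
          _ = u * y * (u * s) := by rw [hab u hu.1 s hs.1, h, mul_zero]
          _ = _ := by simp only [mul_assoc]
      · calc s * (u * y * u) = s * u * y * u := by simp only [mul_assoc]
          _ = u * y * u := by rw [h]
          _ = u * y * (u * s) := by rw [hab u hu.1 s hs.1, h]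
          _ = _ := by simp only [mul_assoc]
    have hsa : ∀ w ∈ A, IsSelfAdjoint w → w * (u * y * u) = u * y * u * w :=
      fun w hw hws => commute_of_proj_selfAdjoint hab hcomm hw hws
    have h1 := hsa _ (add_mem hz (star_mem hz)) (IsSelfAdjoint.add_star_self z)
    have hI : IsSelfAdjoint (Complex.I • (star z - z)) := by
      show star (Complex.I • (star z - z)) = _
      rw [star_smul, star_sub, star_star, Complex.star_def, Complex.conj_I, neg_smul, ← smul_neg,
        neg_sub]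
    have h2 := hsa _ (A.toStarSubalgebra.smul_mem (sub_mem (star_mem hz) hz) Complex.I) hI
    rw [smul_mul_assoc, mul_smul_comm] at h2
    have h2' := smul_right_injective _ Complex.I_ne_zero h2
    rw [add_mul, mul_add] at h1
    rw [sub_mul, mul_sub] at h2'
    have h3 : (2 : ℂ) • (z * (u * y * u)) = (2 : ℂ) • (u * y * u * z) := by
      have := congrArg₂ (· - ·) h1 h2'
      simp only [two_smul]
      convert this using 1 <;> abel
    exact smul_right_injective _ (two_ne_zero (α := ℂ)) h3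
  obtain ⟨v, hv⟩ : ∃ v, u v ≠ 0 := by
    by_contra h
    push Not at h
    exact hu0 (ContinuousLinearMap.ext h)
  set ξ := (‖u v‖ : ℂ)⁻¹ • u v
  have hn : (‖u v‖ : ℂ) ≠ 0 := by exact_mod_cast (norm_ne_zero_iff.2 hv)
  have hξ : ‖ξ‖ = 1 := by
    simp only [ξ]
    rw [norm_smul, norm_inv, Complex.norm_real, norm_norm,
      inv_mul_cancel₀ (norm_ne_zero_iff.2 hv)]
  have huξ : u ξ = ξ := by
    simp only [ξ]
    rw [map_smul, apply_self_of_proj hu.2]
  refine ⟨ξ, hξ, ContinuousLinearMap.ext fun w => ?_⟩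
  set R := InnerProductSpace.rankOne ℂ ξ (u w)
  set R' := InnerProductSpace.rankOne ℂ ξ ξ
  have hab' := DFunLike.congr_fun (hab _ (hcorner R) _ (hcorner (star R))) ξ
  have hR' := DFunLike.congr_fun (hab _ (hcorner (star R)) _ (hcorner R')) ξ
  simp only [R, R', mul_apply_eq_comp, ContinuousLinearMap.star_eq_adjoint,
    InnerProductSpace.adjoint_rankOne, InnerProductSpace.rankOne_apply, huξ, map_smul,
    apply_self_of_proj hu.2, inner_self_eq_norm_sq_to_K, hξ] at hR'
  have h4 : ⟪ξ, u w⟫_ℂ = ⟪ξ, w⟫_ℂ := by rw [← inner_proj hu.2, huξ]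
  simpa [R', h4] using hR'

/-- Below a projection without minimal projections of `A` there are fine partitions. -/
theorem fine_below (hab : ∀ y ∈ A, ∀ z ∈ A, y * z = z * y) {p : H →L[ℂ] H} (hp : IsPr A p)
    (hd : ∀ s, IsPr A s → s * p = s → s ≠ 0 → ∃ e, IsPr A e ∧ e * s = e ∧ e ≠ 0 ∧ e ≠ s)
    (ξ : H) {η : ℝ} (hη : 0 < η) :
    ∃ (T : Finset (H →L[ℂ] H)), (∀ u ∈ T, IsPr A u ∧ u * p = u ∧ wt ξ u < η) ∧
      (∀ u ∈ T, ∀ v ∈ T, u ≠ v → u * v = 0) ∧
      IsPr A (p - ∑ u ∈ T, u) ∧ (p - ∑ u ∈ T, u) * p = p - ∑ u ∈ T, u ∧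
      wt ξ (p - ∑ u ∈ T, u) < η ∧ ∀ u ∈ T, u * (p - ∑ v ∈ T, v) = 0 := by
  classical
  obtain ⟨S, Q, hS, hQ, hQp, hnone, hTQ, happrox⟩ := exhaust A p hp.2 fun u => wt ξ u < η
  have hQ1 : Q = p := by
    by_contra hne
    have hs : IsPr A (p - Q) := isPr_sub hab hQ hp hQp
    have hsp : (p - Q) * p = p - Q := by rw [sub_mul, hp.2.isIdempotentElem.eq, hQp]
    have key : ∀ n : ℕ, ∃ s, IsPr A s ∧ s * (p - Q) = s ∧ s ≠ 0 ∧
        wt ξ s + n * η ≤ wt ξ (p - Q) := by
      intro n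
      induction n with
      | zero =>
        exact ⟨p - Q, hs, hs.2.isIdempotentElem.eq, sub_ne_zero.2 (Ne.symm hne), by simp⟩
      | succ n ih =>
        obtain ⟨s, hs', hsQ, hs0, hle⟩ := ih
        obtain ⟨e, he, hes, he0, hne'⟩ := hd s hs' (by rw [← hsQ, mul_assoc, hsp]) hs0
        have hd' : IsPr A (s - e) := isPr_sub hab he hs' hes
        have hd'Q : (s - e) * (p - Q) = s - e := by
          rw [sub_mul s e, hsQ, ← hes, mul_assoc, hsQ]
        have hbig : η ≤ wt ξ (s - e) :=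
          not_lt.1 (hnone (s - e) hd' (sub_ne_zero.2 (Ne.symm hne')) hd'Q)
        rw [wt_sub] at hbig
        refine ⟨e, he, by rw [← hes, mul_assoc, hsQ], he0, ?_⟩
        push_cast
        linarith
    obtain ⟨n, hn⟩ := exists_nat_gt (wt ξ (p - Q) / η)
    obtain ⟨s, hs', -, -, hle⟩ := key n
    rw [div_lt_iff₀ hη] at hn
    linarith [wt_nonneg ξ hs'.2]
  subst hQ1
  obtain ⟨T, hT, hTξ⟩ := happrox {ξ} (min 1 η) (lt_min one_pos hη)
  have hsum := hS.sum_pr T hT
  have hrest := isPr_sub hab hsum.1 hp hsum.2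
  refine ⟨T, fun u hu => ⟨(hS.1 u (hT u hu)).1, (hS.1 u (hT u hu)).2.1, (hS.1 u (hT u hu)).2.2.2⟩,
    fun u hu v hv huv => hS.2 (hT u hu) (hT v hv) huv, hrest, sub_mul_eq hp hsum.2, ?_,
    fun u hu => ?_⟩
  · have h := hTξ ξ (Finset.mem_singleton_self ξ)
    rw [wt_eq ξ hrest.2]
    calc ‖(Q - ∑ u ∈ T, u) ξ‖ ^ 2 ≤ ‖(Q - ∑ u ∈ T, u) ξ‖ := by
          rw [sq]
          exact mul_le_of_le_one_left (norm_nonneg _) (h.le.trans (min_le_left _ _))
      _ < η := h.trans_le (min_le_right _ _)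
  · rw [mul_sub, (hS.1 u (hT u hu)).2.1, Finset.mul_sum,
      Finset.sum_eq_single_of_mem u hu fun v hv hvu => hS.2 (hT u hu) (hT v hv) hvu.symm,
      (hS.1 u (hT u hu)).1.2.isIdempotentElem.eq, sub_self]

/-- A normal central functional kills rank one projections below a diffuse projection. -/
theorem central_rankOne (hab : ∀ y ∈ A, ∀ z ∈ A, y * z = z * y)
    (hM : ∀ y : H →L[ℂ] H, y ∈ M) {p : H →L[ℂ] H} (hp : IsPr A p)
    (hd : ∀ s, IsPr A s → s * p = s → s ≠ 0 → ∃ e, IsPr A e ∧ e * s = e ∧ e ≠ 0 ∧ e ≠ s)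
    {f : (H →L[ℂ] H) →ₗ[ℂ] ℂ} (hf : IsNormalCentral M A f) {ξ : H}
    (hpξ : p ξ = ξ) : f (InnerProductSpace.rankOne ℂ ξ ξ) = 0 := by
  classical
  refine eq_zero_of_small fun ε hε => ?_
  obtain ⟨F, δ, hδ, hfF⟩ := hf.2.2 ε hε
  set S := ∑ v ∈ F, ‖v‖
  set η := min 1 (δ / (S + 1)) with hηdef
  have hS : 0 ≤ S := Finset.sum_nonneg fun v _ => norm_nonneg v
  have hη : 0 < η := by positivity
  obtain ⟨T, hT, hTo, hrA, hrp, hrw, hrT⟩ := fine_below hab hp hd ξ hη
  set rest := p - ∑ u ∈ T, u with hrestdef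
  set q := InnerProductSpace.rankOne ℂ ξ ξ with hqdef
  have hpq : p * q = q := ContinuousLinearMap.ext fun v => by
    simp [hqdef, hpξ]
  have hq' : f q = f ((∑ u ∈ T, u * q * u) + rest * q * rest) := by
    have e1 : q = (∑ u ∈ T, u * q) + rest * q := by
      rw [← Finset.sum_mul, ← add_mul, hrestdef, add_sub_cancel, hpq]
    have e2 : ∀ u, IsPr A u → f (u * q) = f (u * q * u) := fun u hu => by
      conv_lhs => rw [← hu.2.isIdempotentElem.eq, mul_assoc]
      exact hf.2.1 _ hu.1 hu.2 _ (hM _)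
    conv_lhs => rw [e1]
    rw [map_add, map_sum, map_add, map_sum, e2 rest hrA,
      Finset.sum_congr rfl fun u hu => e2 u (hT u hu).1]
  rw [hq']
  set D := (∑ u ∈ T, u * q * u) + rest * q * rest with hDdef
  have hD : ‖D‖ ≤ η := by
    refine ContinuousLinearMap.opNorm_le_bound _ hη.le fun v => ?_
    have hu1 : ∀ u, IsPr A u → wt ξ u < η → ‖(u * q * u) v‖ ≤ η * ‖u v‖ := fun u hu hw => by
      rw [mul_apply_eq_comp, mul_apply_eq_comp, hqdef, InnerProductSpace.rankOne_apply, map_smul,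
        norm_smul, show ⟪ξ, u v⟫_ℂ = ⟪u ξ, u v⟫_ℂ by rw [inner_proj hu.2, apply_self_of_proj hu.2]]
      calc ‖⟪u ξ, u v⟫_ℂ‖ * ‖u ξ‖ ≤ ‖u ξ‖ * ‖u v‖ * ‖u ξ‖ :=
            mul_le_mul_of_nonneg_right (norm_inner_le_norm _ _) (norm_nonneg _)
        _ = wt ξ u * ‖u v‖ := by rw [wt_eq ξ hu.2]; ring
        _ ≤ η * ‖u v‖ := mul_le_mul_of_nonneg_right hw.le (norm_nonneg _)
    refine le_of_sq_le_sq ?_ (by positivity)
    let c : Option {u // u ∈ T} → (H →L[ℂ] H) := fun o => o.elim rest (·.1)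
    have hc : ∀ o, IsPr A (c o) ∧ wt ξ (c o) < η := fun o => by
      rcases o with _ | ⟨u, hu⟩
      · exact ⟨hrA, hrw⟩
      · exact ⟨(hT u hu).1, (hT u hu).2.2⟩
    have hco : ∀ o o', o ≠ o' → c o * c o' = 0 := by
      rintro (_ | ⟨u, hu⟩) (_ | ⟨u', hu'⟩) h
      · exact absurd rfl h
      · show rest * u' = 0
        rw [hab _ hrA.1 _ (hT u' hu').1.1, hrT u' hu']
      · exact hrT u hu
      · exact hTo u hu u' hu' fun e => h (by subst e; rfl)
    have hDsum : D = ∑ o, c o * q * c o := by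
      rw [Fintype.sum_option, hDdef, add_comm, ← Finset.sum_coe_sort]
      rfl
    have hsum : ∀ g : Option {u // u ∈ T} → H,
        ‖∑ o, c o (g o)‖ ^ 2 = ∑ o, ‖c o (g o)‖ ^ 2 := fun g => by
      rw [← RCLike.ofReal_inj (K := ℂ)]
      push_cast
      rw [← inner_self_eq_norm_sq_to_K, sum_inner]
      refine Finset.sum_congr rfl fun o _ => ?_
      rw [inner_sum, Finset.sum_eq_single o]
      · exact inner_self_eq_norm_sq_to_K _
      · intro o' _ ho'
        rw [inner_proj (hc o).1.2, ← mul_apply_eq_comp, hco o o' (Ne.symm ho')]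
        simp
      · simp
    rw [hDsum, sum_apply]
    calc ‖∑ o, (c o * q * c o) v‖ ^ 2 = ∑ o, ‖(c o * q * c o) v‖ ^ 2 := by
          simp only [mul_apply_eq_comp]
          exact hsum fun o => q (c o v)
      _ ≤ ∑ o, η ^ 2 * ‖c o v‖ ^ 2 := Finset.sum_le_sum fun o _ => by
          rw [← mul_pow]
          exact pow_le_pow_left₀ (norm_nonneg _) (hu1 _ (hc o).1 (hc o).2) 2
      _ = η ^ 2 * ‖∑ o, c o v‖ ^ 2 := by rw [← Finset.mul_sum, hsum fun _ => v]
      _ ≤ (η * ‖v‖) ^ 2 := by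
          rw [mul_pow]
          refine mul_le_mul_of_nonneg_left (pow_le_pow_left₀ (norm_nonneg _) ?_ 2) (sq_nonneg η)
          have : ∑ o, c o = p := by
            rw [Fintype.sum_option]
            show rest + ∑ o : {u // u ∈ T}, (o : H →L[ℂ] H) = p
            rw [Finset.sum_coe_sort T fun u => u]
            exact sub_add_cancel p _
          rw [← sum_apply, this]
          exact norm_proj_apply_le hp.2 v
  refine (hfF D (hM D) (hD.trans (min_le_left _ _)) fun v hv => ?_).le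
  have hv' : ‖v‖ ≤ S := Finset.single_le_sum (f := fun v => ‖v‖) (fun v _ => norm_nonneg _) hv
  calc ‖D v‖ ≤ δ / (S + 1) * ‖v‖ := D.le_of_opNorm_le (hD.trans (min_le_right _ _)) v
    _ < δ := by
        rw [div_mul_eq_mul_div, div_lt_iff₀ (by positivity)]
        nlinarith

/-- The rank one part of the MASA and the rest. -/
theorem split (hab : ∀ y ∈ A, ∀ z ∈ A, y * z = z * y)
    (hmax : ∀ y ∈ M, (∀ z ∈ A, z * y = y * z) → y ∈ A) (hM : ∀ y : H →L[ℂ] H, y ∈ M) :
    ∃ (S : Set (H →L[ℂ] H)) (Q : H →L[ℂ] H), Fam A 1 IsRankOne S ∧ IsPr A Q ∧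
      (∀ T : Finset (H →L[ℂ] H), (∀ u ∈ T, u ∈ S) → (∑ u ∈ T, u) * Q = ∑ u ∈ T, u) ∧
      (∀ (F : Finset H) (δ : ℝ), 0 < δ → ∃ T : Finset (H →L[ℂ] H), (∀ u ∈ T, u ∈ S) ∧
        ∀ ξ ∈ F, ‖(Q - ∑ u ∈ T, u) ξ‖ < δ) ∧
      ∀ f, IsNormalCentral M A f → f (1 - Q) = 0 := by
  classical
  obtain ⟨S, Q, hS, hQ, -, hnone, hTQ, happrox⟩ :=
    exhaust A 1 (IsStarProjection.one _) IsRankOne
  refine ⟨S, Q, hS, hQ, hTQ, happrox, fun f hf => ?_⟩
  have hp : IsPr A (1 - Q) := ⟨sub_mem (one_mem _) hQ.1, hQ.2.one_sub⟩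
  have hd : ∀ s, IsPr A s → s * (1 - Q) = s → s ≠ 0 →
      ∃ e, IsPr A e ∧ e * s = e ∧ e ≠ 0 ∧ e ≠ s := by
    intro s hs hsQ hs0
    by_contra h
    push Not at h
    exact hnone s hs hs0 hsQ (rankOne_of_minimal hab hmax hM hs hs0 fun e he hes =>
      or_iff_not_imp_left.2 fun he0 => h e he hes he0)
  refine eq_zero_of_small fun ε hε => ?_
  obtain ⟨F, δ, hδ, hfF⟩ := hf.2.2 ε hε
  set K := Submodule.span ℂ (↑(F.image fun v => (1 - Q) v) : Set H) with hKdef
  have hpK : ∀ v ∈ K, (1 - Q) v = v := by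
    intro v hv
    induction hv using Submodule.span_induction with
    | mem v hv =>
      obtain ⟨w, -, rfl⟩ := Finset.mem_image.1 (Finset.mem_coe.1 hv)
      exact apply_self_of_proj hp.2 w
    | zero => simp
    | add a b _ _ ha hb => rw [map_add, ha, hb]
    | smul c a _ ha => rw [map_smul, ha]
  set bb := stdOrthonormalBasis ℂ K
  have hq : K.starProjection = ∑ i, InnerProductSpace.rankOne ℂ (bb i : H) (bb i : H) :=
    OrthonormalBasis.starProjection_eq_sum_rankOne bb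
  have hfq : f K.starProjection = 0 := by
    rw [hq, map_sum]
    exact Finset.sum_eq_zero fun i _ => central_rankOne hab hM hp hd hf
      (hpK _ (bb i).2)
  have hle : (1 - Q) * K.starProjection = K.starProjection := ContinuousLinearMap.ext fun v =>
    hpK _ (Submodule.starProjection_apply_mem K v)
  have hle' : K.starProjection * (1 - Q) = K.starProjection := by
    simpa [star_mul, hp.2.isSelfAdjoint.star_eq,
      (isStarProjection_starProjection (U := K)).isSelfAdjoint.star_eq] using congrArg star hle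
  have hproj : IsStarProjection (1 - Q - K.starProjection) :=
    sub_proj hp.2 isStarProjection_starProjection hle'
  have h := hfF (1 - Q - K.starProjection) (hM _) hproj.norm_le fun v hv => by
    have hmem : (1 - Q) v ∈ K :=
      Submodule.subset_span (Finset.mem_coe.2 (Finset.mem_image_of_mem _ hv))
    have h0 : K.starProjection v = (1 - Q) v := by
      calc K.starProjection v = (K.starProjection * (1 - Q)) v := by rw [hle']
        _ = _ := by rw [mul_apply_eq_comp, Submodule.starProjection_eq_self_iff.2 hmem]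
    rw [sub_apply, h0, sub_self, norm_zero]
    exact hδ
  rw [map_sub, hfq, sub_zero] at h
  exact h.le

end Vale.Agent.P078.MKS.TypeI
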